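import Vale.Agent.P144Z.CAR.Fock

/-!
# The norm of a Grassmann element: supremum over anticommuting matrix fields
-/

namespace Vale.Agent.P144Z.CAR

open Matrix
open scoped Matrix.Norms.L2Operator

set_option linter.unusedSectionVars false

/-- an anticommuting matrix field -/
structure Fld (R V : Type) [CommRing R] [Algebra R ℂ] [AddCommGroup V] [Module R V] where
  n : Type
  [fin : Fintype n]
  [dec : DecidableEq n]
  φ : V →ₗ[R] Matrix n n ℂ
  sq : ∀ v, φ v * φ v = 0

attribute [instance] Fld.fin Fld.dec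

variable {R V : Type} [CommRing R] [Algebra R ℂ] [AddCommGroup V] [Module R V]

/-- evaluation of Grassmann elements at a field -/
noncomputable def Fld.ev (Φ : Fld R V) : ExteriorAlgebra R V →ₐ[R] Matrix Φ.n Φ.n ℂ :=
  ExteriorAlgebra.lift R ⟨Φ.φ, Φ.sq⟩

theorem Fld.ev_ι (Φ : Fld R V) (v : V) : Φ.ev (ExteriorAlgebra.ι R v) = Φ.φ v :=
  ExteriorAlgebra.lift_ι_apply R _ _ v

/-- the zero field -/
def Fld.zero (R V : Type) [CommRing R] [Algebra R ℂ] [AddCommGroup V] [Module R V] : Fld R V where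
  n := Unit
  φ := 0
  sq := fun _ => zero_mul _

/-- pull back of a field along a linear map -/
def Fld.comap {W : Type} [AddCommGroup W] [Module R W] (Φ : Fld R W) (L : V →ₗ[R] W) :
    Fld R V where
  n := Φ.n
  φ := Φ.φ.comp L
  sq := fun v => Φ.sq (L v)

theorem Fld.comap_ev {W : Type} [AddCommGroup W] [Module R W] (Φ : Fld R W) (L : V →ₗ[R] W)
    (x : ExteriorAlgebra R V) : (Φ.comap L).ev x = Φ.ev (ExteriorAlgebra.map L x) := by
  have : (Φ.comap L).ev = Φ.ev.comp (ExteriorAlgebra.map L) := by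
    refine ExteriorAlgebra.hom_ext (LinearMap.ext fun v => ?_)
    show (Φ.comap L).ev (ExteriorAlgebra.ι R v) =
      Φ.ev (ExteriorAlgebra.map L (ExteriorAlgebra.ι R v))
    rw [Fld.ev_ι, ExteriorAlgebra.map_apply_ι, Fld.ev_ι]
    rfl
  rw [this]
  rfl

theorem Fld.zero_ev (x : ExteriorAlgebra R V) :
    (Fld.zero R V).ev x = algebraMap R _ (ExteriorAlgebra.algebraMapInv x) := by
  have : (Fld.zero R V).ev = (Algebra.ofId R _).comp ExteriorAlgebra.algebraMapInv := by
    refine ExteriorAlgebra.hom_ext (LinearMap.ext fun v => ?_)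
    show (Fld.zero R V).ev (ExteriorAlgebra.ι R v) =
      algebraMap R _ (ExteriorAlgebra.algebraMapInv (ExteriorAlgebra.ι R v))
    rw [Fld.ev_ι, ExteriorAlgebra.algebraMapInv, ExteriorAlgebra.lift_ι_apply,
      LinearMap.zero_apply, map_zero]
    rfl
  rw [this]
  rfl

theorem norm_zero_ev (x : ExteriorAlgebra R V) :
    ‖(Fld.zero R V).ev x‖ = ‖algebraMap R ℂ (ExteriorAlgebra.algebraMapInv x)‖ := by
  rw [Fld.zero_ev]
  have e : (algebraMap R (Matrix Unit Unit ℂ)) (ExteriorAlgebra.algebraMapInv x) =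
      diagonal fun _ => algebraMap R ℂ (ExteriorAlgebra.algebraMapInv x) := by
    rw [algebraMap_eq_diagonal]
    rfl
  have e2 : ‖(algebraMap R (Matrix Unit Unit ℂ)) (ExteriorAlgebra.algebraMapInv x)‖ =
      ‖algebraMap R ℂ (ExteriorAlgebra.algebraMapInv x)‖ := by
    rw [e, l2_opNorm_diagonal, pi_norm_const]
  exact e2

theorem norm_smul_mat {n : Type} [Fintype n] [DecidableEq n] (r : R) (T : Matrix n n ℂ) :
    ‖r • T‖ = ‖algebraMap R ℂ r‖ * ‖T‖ := by
  rw [← algebraMap_smul ℂ r T, norm_smul]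

variable {α : Type}

/-- the field is at most `h a` on the test vector `u a` -/
def Adm (u : α → V) (h : α → ℝ) (Φ : Fld R V) : Prop := ∀ a, ‖Φ.φ (u a)‖ ≤ h a

/-- the norm with test vectors `u` and sizes `h` -/
noncomputable def cn (u : α → V) (h : α → ℝ) (x : ExteriorAlgebra R V) : ℝ :=
  ⨆ Φ : {Φ : Fld R V // Adm u h Φ}, ‖Φ.1.ev x‖

variable {u : α → V} {h : α → ℝ}

theorem adm_zero (hh : ∀ a, 0 ≤ h a) : Adm u h (Fld.zero R V) := fun a => by
  show ‖(0 : Matrix Unit Unit ℂ)‖ ≤ h a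
  rw [norm_zero]
  exact hh a

theorem exists_bound_vec (hu : Submodule.span R (Set.range u) = ⊤) (v : V) :
    ∃ c : ℝ, 0 ≤ c ∧ ∀ Φ : Fld R V, Adm u h Φ → ‖Φ.φ v‖ ≤ c := by
  have hv : v ∈ Submodule.span R (Set.range u) := hu ▸ Submodule.mem_top
  induction hv using Submodule.span_induction with
  | mem v hv =>
    obtain ⟨a, rfl⟩ := hv
    exact ⟨max (h a) 0, le_max_right _ _, fun Φ hΦ => (hΦ a).trans (le_max_left _ _)⟩
  | zero => exact ⟨0, le_rfl, fun Φ _ => by rw [map_zero, norm_zero]⟩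
  | add v w _ _ hv hw =>
    obtain ⟨c, hc, h1⟩ := hv
    obtain ⟨d, hd, h2⟩ := hw
    refine ⟨c + d, add_nonneg hc hd, fun Φ hΦ => ?_⟩
    rw [map_add]
    exact (norm_add_le _ _).trans (add_le_add (h1 Φ hΦ) (h2 Φ hΦ))
  | smul r v _ hv =>
    obtain ⟨c, hc, h1⟩ := hv
    refine ⟨‖algebraMap R ℂ r‖ * c, mul_nonneg (norm_nonneg _) hc, fun Φ hΦ => ?_⟩
    rw [map_smul, norm_smul_mat]
    exact mul_le_mul_of_nonneg_left (h1 Φ hΦ) (norm_nonneg _)

theorem exists_bound (hu : Submodule.span R (Set.range u) = ⊤) (x : ExteriorAlgebra R V) :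
    ∃ c : ℝ, 0 ≤ c ∧ ∀ Φ : Fld R V, Adm u h Φ → ‖Φ.ev x‖ ≤ c := by
  induction x using ExteriorAlgebra.induction with
  | algebraMap r =>
    refine ⟨‖algebraMap R ℂ r‖, norm_nonneg _, fun Φ _ => ?_⟩
    rw [AlgHom.commutes, Algebra.algebraMap_eq_smul_one, norm_smul_mat]
    exact mul_le_of_le_one_right (norm_nonneg _) norm_one_le
  | ι v =>
    obtain ⟨c, hc, h1⟩ := exists_bound_vec (h := h) hu v
    exact ⟨c, hc, fun Φ hΦ => by rw [Fld.ev_ι]; exact h1 Φ hΦ⟩
  | mul x y hx hy =>
    obtain ⟨c, hc, h1⟩ := hx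
    obtain ⟨d, hd, h2⟩ := hy
    refine ⟨c * d, mul_nonneg hc hd, fun Φ hΦ => ?_⟩
    rw [map_mul]
    exact (norm_mul_le _ _).trans (mul_le_mul (h1 Φ hΦ) (h2 Φ hΦ) (norm_nonneg _) hc)
  | add x y hx hy =>
    obtain ⟨c, hc, h1⟩ := hx
    obtain ⟨d, hd, h2⟩ := hy
    refine ⟨c + d, add_nonneg hc hd, fun Φ hΦ => ?_⟩
    rw [map_add]
    exact (norm_add_le _ _).trans (add_le_add (h1 Φ hΦ) (h2 Φ hΦ))

theorem le_cn (hu : Submodule.span R (Set.range u) = ⊤) {Φ : Fld R V} (hΦ : Adm u h Φ)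
    (x : ExteriorAlgebra R V) : ‖Φ.ev x‖ ≤ cn u h x := by
  obtain ⟨c, -, hc⟩ := exists_bound (h := h) hu x
  refine le_ciSup (f := fun Φ : {Φ : Fld R V // Adm u h Φ} => ‖Φ.1.ev x‖) ⟨c, ?_⟩ ⟨Φ, hΦ⟩
  rintro _ ⟨Ψ, rfl⟩
  exact hc Ψ.1 Ψ.2

theorem cn_le {x : ExteriorAlgebra R V} {c : ℝ} (hc : 0 ≤ c)
    (H : ∀ Φ : Fld R V, Adm u h Φ → ‖Φ.ev x‖ ≤ c) : cn u h x ≤ c :=
  Real.iSup_le (fun Φ => H Φ.1 Φ.2) hc

theorem cn_nonneg (x : ExteriorAlgebra R V) : 0 ≤ cn u h x :=
  Real.iSup_nonneg fun _ => norm_nonneg _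

theorem cn_zero : cn u h (0 : ExteriorAlgebra R V) = 0 :=
  le_antisymm (cn_le le_rfl fun Φ _ => by rw [map_zero, norm_zero]) (cn_nonneg _)

theorem cn_neg (x : ExteriorAlgebra R V) : cn u h (-x) = cn u h x := by
  unfold cn
  simp only [map_neg, norm_neg]

theorem cn_one_le : cn u h (1 : ExteriorAlgebra R V) ≤ 1 :=
  cn_le zero_le_one fun Φ _ => by rw [map_one]; exact norm_one_le

theorem cn_ι_le (hh : ∀ a, 0 ≤ h a) (a : α) : cn u h (ExteriorAlgebra.ι R (u a)) ≤ h a :=
  cn_le (hh a) fun Φ hΦ => by rw [Fld.ev_ι]; exact hΦ a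

section

variable (hu : Submodule.span R (Set.range u) = ⊤)
include hu

theorem cn_add_le (x y : ExteriorAlgebra R V) : cn u h (x + y) ≤ cn u h x + cn u h y :=
  cn_le (add_nonneg (cn_nonneg _) (cn_nonneg _)) fun Φ hΦ => by
    rw [map_add]
    exact (norm_add_le _ _).trans (add_le_add (le_cn hu hΦ x) (le_cn hu hΦ y))

theorem cn_sub_le (x y : ExteriorAlgebra R V) : cn u h (x - y) ≤ cn u h x + cn u h y := by
  rw [sub_eq_add_neg, ← cn_neg y]
  exact cn_add_le hu x (-y)

theorem cn_mul_le (x y : ExteriorAlgebra R V) : cn u h (x * y) ≤ cn u h x * cn u h y :=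
  cn_le (mul_nonneg (cn_nonneg _) (cn_nonneg _)) fun Φ hΦ => by
    rw [map_mul]
    exact (norm_mul_le _ _).trans
      (mul_le_mul (le_cn hu hΦ x) (le_cn hu hΦ y) (norm_nonneg _) (cn_nonneg _))

theorem cn_smul_le (r : R) (x : ExteriorAlgebra R V) :
    cn u h (r • x) ≤ ‖algebraMap R ℂ r‖ * cn u h x :=
  cn_le (mul_nonneg (norm_nonneg _) (cn_nonneg _)) fun Φ hΦ => by
    rw [map_smul, norm_smul_mat]
    exact mul_le_mul_of_nonneg_left (le_cn hu hΦ x) (norm_nonneg _)

theorem cn_sum_le {β : Type} (s : Finset β) (x : β → ExteriorAlgebra R V) :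
    cn u h (∑ b ∈ s, x b) ≤ ∑ b ∈ s, cn u h (x b) :=
  cn_le (Finset.sum_nonneg fun _ _ => cn_nonneg _) fun Φ hΦ => by
    rw [map_sum]
    exact (norm_sum_le _ _).trans (Finset.sum_le_sum fun b _ => le_cn hu hΦ _)

theorem cn_list_prod_le (l : List (ExteriorAlgebra R V)) :
    cn u h l.prod ≤ (l.map (cn u h)).prod := by
  induction l with
  | nil => exact cn_one_le
  | cons x l ih =>
    rw [List.prod_cons, List.map_cons, List.prod_cons]
    exact (cn_mul_le hu _ _).trans (mul_le_mul_of_nonneg_left ih (cn_nonneg _))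

theorem cn_pow_le (x : ExteriorAlgebra R V) (k : ℕ) : cn u h (x ^ k) ≤ cn u h x ^ k := by
  induction k with
  | zero => rw [pow_zero, pow_zero]; exact cn_one_le
  | succ k ih =>
    rw [pow_succ, pow_succ]
    exact (cn_mul_le hu _ _).trans (mul_le_mul_of_nonneg_right ih (cn_nonneg _))

/-- fewer admissible fields, smaller norm -/
theorem cn_le_cn {β : Type} {u' : β → V} {h' : β → ℝ}
    (H : ∀ Φ : Fld R V, Adm u' h' Φ → Adm u h Φ) (x : ExteriorAlgebra R V) :
    cn u' h' x ≤ cn u h x :=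
  cn_le (cn_nonneg _) fun Φ hΦ => le_cn hu (H Φ hΦ) x

theorem cn_mono {h' : α → ℝ} (H : ∀ a, h' a ≤ h a) (x : ExteriorAlgebra R V) :
    cn u h' x ≤ cn u h x :=
  cn_le_cn hu (fun _ hΦ a => (hΦ a).trans (H a)) x

/-- substitution of fields -/
theorem cn_map_le {W β : Type} [AddCommGroup W] [Module R W] {u' : β → W} {h' : β → ℝ}
    (L : V →ₗ[R] W) (H : ∀ Φ : Fld R W, Adm u' h' Φ → ∀ a, ‖Φ.φ (L (u a))‖ ≤ h a)
    (x : ExteriorAlgebra R V) : cn u' h' (ExteriorAlgebra.map L x) ≤ cn u h x :=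
  cn_le (cn_nonneg _) fun Φ hΦ => by
    rw [← Fld.comap_ev]
    exact le_cn hu (Φ := Φ.comap L) (H Φ hΦ) x

/-- the constant term is bounded by the norm -/
theorem const_le_cn (hh : ∀ a, 0 ≤ h a) (x : ExteriorAlgebra R V) :
    ‖algebraMap R ℂ (ExteriorAlgebra.algebraMapInv x)‖ ≤ cn u h x := by
  rw [← norm_zero_ev]
  exact le_cn hu (adm_zero hh) x

theorem cn_algebraMap (hh : ∀ a, 0 ≤ h a) (r : R) :
    cn u h (algebraMap R (ExteriorAlgebra R V) r) = ‖algebraMap R ℂ r‖ := by
  refine le_antisymm (cn_le (norm_nonneg _) fun Φ _ => ?_) ?_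
  · rw [AlgHom.commutes, Algebra.algebraMap_eq_smul_one, norm_smul_mat]
    exact mul_le_of_le_one_right (norm_nonneg _) norm_one_le
  · have := const_le_cn hu hh (algebraMap R (ExteriorAlgebra R V) r)
    rwa [AlgHom.commutes] at this

end

/-- iterated derivative; the head of the list acts first -/
noncomputable def dls (l : List (Module.Dual R V)) (x : ExteriorAlgebra R V) :
    ExteriorAlgebra R V :=
  l.foldl (fun y d => CliffordAlgebra.contractLeft d y) x

theorem dls_nil (x : ExteriorAlgebra R V) : dls [] x = x := rfl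

theorem dls_cons (d : Module.Dual R V) (l : List (Module.Dual R V)) (x : ExteriorAlgebra R V) :
    dls (d :: l) x = dls l (CliffordAlgebra.contractLeft d x) := rfl

theorem gauss_dls {C : LinearMap.BilinForm R V} {hC : ∀ v, C v v = 0}
    (l : List (Module.Dual R V)) (x : ExteriorAlgebra R V) :
    gauss C hC (dls l x) = dls l (gauss C hC x) := by
  induction l generalizing x with
  | nil => rfl
  | cons d l ih => rw [dls_cons, dls_cons, ih, gauss_contractLeft]

/-- **Gram bound with derivatives.** The covariance is `C v w = ∑ i, g v i * f w i`, the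
derivatives are `d w = ∑ i, γ i * f w i`. -/
theorem cn_dls_gauss_le {ι : Type} [Fintype ι] (hu : Submodule.span R (Set.range u) = ⊤)
    (C : LinearMap.BilinForm R V) (hC : ∀ v, C v v = 0) (f g : V →ₗ[R] ι → ℂ)
    (hfg : ∀ v w, algebraMap R ℂ (C v w) = ∑ i, g v i * f w i) {h' : α → ℝ}
    (hh : ∀ a, h a + (l2 (f (u a)) + l2 (g (u a))) ≤ h' a)
    (l : List (Module.Dual R V × (ι → ℂ)))
    (hl : ∀ p ∈ l, ∀ w, algebraMap R ℂ (p.1 w) = ∑ i, p.2 i * f w i) (x : ExteriorAlgebra R V) :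
    cn u h (dls (l.map Prod.fst) (gauss C hC x)) ≤ (l.map fun p => l2 p.2).prod * cn u h' x := by
  have hp : ∀ l : List (Module.Dual R V × (ι → ℂ)), 0 ≤ (l.map fun p => l2 p.2).prod :=
    fun l => List.prod_nonneg fun c hc => by
      obtain ⟨p, -, rfl⟩ := List.mem_map.1 hc
      exact l2_nonneg _
  refine cn_le (mul_nonneg (hp l) (cn_nonneg _)) fun Φ hΦ => ?_
  obtain ⟨m, _, _, Ψ, hΨ, E, A, h1, h2, h3, h4, h5, -, h7⟩ :=
    exists_gauss_ext C hC f g hfg Φ.φ Φ.sq
  have key : ∃ T : Matrix m m ℂ, ‖T‖ ≤ (l.map fun p => l2 p.2).prod ∧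
      ∀ y, E (T * ExteriorAlgebra.lift R ⟨Ψ, hΨ⟩ y) =
        E (ExteriorAlgebra.lift R ⟨Ψ, hΨ⟩ (dls (l.map Prod.fst) y)) := by
    induction l with
    | nil => exact ⟨1, norm_one_le, fun y => by rw [one_mul]; rfl⟩
    | cons p l ih =>
      obtain ⟨T, hT, hT'⟩ := ih fun q hq => hl q (List.mem_cons_of_mem _ hq)
      refine ⟨T * A p.2, ?_, fun y => ?_⟩
      · rw [List.map_cons, List.prod_cons, mul_comm (l2 p.2)]
        exact (norm_mul_le _ _).trans (mul_le_mul hT (h4 _) (norm_nonneg _) (hp l))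
      · have hb : ∀ w, A p.2 * Ψ w + Ψ w * A p.2 = algebraMap R _ (p.1 w) := by
          intro w
          rw [h7, ← hl p List.mem_cons_self w, algebraMap_smul, Algebra.algebraMap_eq_smul_one]
        rw [mul_assoc, anti_lift Ψ hΨ _ p.1 hb, mul_add, map_add, ← mul_assoc, h5, zero_add, hT',
          List.map_cons, dls_cons]
  obtain ⟨T, hT, hT'⟩ := key
  have hadm : Adm u h' (⟨m, Ψ, hΨ⟩ : Fld R V) := fun a =>
    (h1 (u a)).trans ((add_le_add_left (hΦ a) _).trans (hh a))
  have e : Φ.ev (dls (l.map Prod.fst) (gauss C hC x)) =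
      E (T * ExteriorAlgebra.lift R ⟨Ψ, hΨ⟩ x) := by
    rw [hT', ← h3, gauss_dls]
    rfl
  rw [e]
  exact (h2 _).trans ((norm_mul_le _ _).trans
    (mul_le_mul hT (le_cn hu hadm x) (norm_nonneg _) (hp l)))

/-- **Gram bound.** -/
theorem cn_gauss_le {ι : Type} [Fintype ι] (hu : Submodule.span R (Set.range u) = ⊤)
    (C : LinearMap.BilinForm R V) (hC : ∀ v, C v v = 0) (f g : V →ₗ[R] ι → ℂ)
    (hfg : ∀ v w, algebraMap R ℂ (C v w) = ∑ i, g v i * f w i) {h' : α → ℝ}
    (hh : ∀ a, h a + (l2 (f (u a)) + l2 (g (u a))) ≤ h' a) (x : ExteriorAlgebra R V) :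
    cn u h (gauss C hC x) ≤ cn u h' x := by
  have := cn_dls_gauss_le hu C hC f g hfg hh [] (fun _ hp => absurd hp List.not_mem_nil) x
  rwa [List.map_nil, List.map_nil, List.prod_nil, one_mul, dls_nil] at this

theorem l2_zero {ι : Type} [Fintype ι] : l2 (0 : ι → ℂ) = 0 := by simp [l2]

/-- **Cauchy estimate** for iterated derivatives `d w = ∑ i, γ i * f w i`. -/
theorem cn_dls_le {ι : Type} [Fintype ι] (hu : Submodule.span R (Set.range u) = ⊤)
    (f : V →ₗ[R] ι → ℂ) {h' : α → ℝ} (hh : ∀ a, h a + l2 (f (u a)) ≤ h' a)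
    (l : List (Module.Dual R V × (ι → ℂ)))
    (hl : ∀ p ∈ l, ∀ w, algebraMap R ℂ (p.1 w) = ∑ i, p.2 i * f w i) (x : ExteriorAlgebra R V) :
    cn u h (dls (l.map Prod.fst) x) ≤ (l.map fun p => l2 p.2).prod * cn u h' x := by
  have := cn_dls_gauss_le hu 0 (fun _ => rfl) f 0 (fun v w => by simp) (h := h) (h' := h')
    (fun a => by rw [LinearMap.zero_apply, l2_zero, add_zero]; exact hh a) l hl x
  rwa [gauss_zero] at this

/-- Taylor coefficients at the zero field -/
theorem coeff_le_cn {ι : Type} [Fintype ι] (hu : Submodule.span R (Set.range u) = ⊤)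
    (f : V →ₗ[R] ι → ℂ) (hh : ∀ a, l2 (f (u a)) ≤ h a) (l : List (Module.Dual R V × (ι → ℂ)))
    (hl : ∀ p ∈ l, ∀ w, algebraMap R ℂ (p.1 w) = ∑ i, p.2 i * f w i) (x : ExteriorAlgebra R V) :
    ‖algebraMap R ℂ (ExteriorAlgebra.algebraMapInv (dls (l.map Prod.fst) x))‖ ≤
      (l.map fun p => l2 p.2).prod * cn u h x :=
  (const_le_cn hu (h := fun _ => 0) (fun _ => le_rfl) _).trans
    (cn_dls_le hu f (fun a => by rw [zero_add]; exact hh a) l hl x)

/-! ### faithfulness -/

theorem map_proj (e : V) (d : Module.Dual R V) (x : ExteriorAlgebra R V) :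
    ExteriorAlgebra.map (LinearMap.id - d.smulRight e) x =
      x - ExteriorAlgebra.ι R e * CliffordAlgebra.contractLeft d x := by
  induction x using CliffordAlgebra.left_induction with
  | algebraMap r =>
    rw [AlgHom.commutes, CliffordAlgebra.contractLeft_algebraMap, mul_zero, sub_zero]
  | add x y hx hy => rw [map_add, hx, hy, map_add, mul_add]; abel
  | ι_mul x v hx =>
    have e1 : ExteriorAlgebra.map (LinearMap.id - d.smulRight e) (CliffordAlgebra.ι _ v) =
        ExteriorAlgebra.ι R v - d v • ExteriorAlgebra.ι R e := by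
      rw [← map_smul, ← map_sub]
      exact ExteriorAlgebra.map_apply_ι _ v
    have e2 : ExteriorAlgebra.ι R e * ExteriorAlgebra.ι R v =
        -(ExteriorAlgebra.ι R v * ExteriorAlgebra.ι R e) :=
      eq_neg_of_add_eq_zero_left (ExteriorAlgebra.ι_add_mul_swap e v)
    have e3 : ExteriorAlgebra.ι R e * ExteriorAlgebra.ι R e = 0 := ExteriorAlgebra.ι_sq_zero e
    have e4 : CliffordAlgebra.contractLeft d (CliffordAlgebra.ι (0 : QuadraticForm R V) v * x) =
        d v • x - ExteriorAlgebra.ι R v * CliffordAlgebra.contractLeft d x :=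
      CliffordAlgebra.contractLeft_ι_mul _ _ _
    rw [map_mul, hx, e1, e4, sub_mul, mul_sub, mul_sub, mul_sub, smul_mul_assoc, smul_mul_assoc,
      ← mul_assoc (ExteriorAlgebra.ι R e) (ExteriorAlgebra.ι R e), e3, zero_mul, smul_zero,
      sub_zero, mul_smul_comm, ← mul_assoc (ExteriorAlgebra.ι R e) (ExteriorAlgebra.ι R v), e2,
      neg_mul, mul_assoc]
    show _ = ExteriorAlgebra.ι R v * x - _
    abel

theorem eq_const_of_contract {ι : Type} [Fintype ι] (b : Module.Basis ι R V)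
    (x : ExteriorAlgebra R V) (hx : ∀ i, CliffordAlgebra.contractLeft (b.coord i) x = 0) :
    x = algebraMap R _ (ExteriorAlgebra.algebraMapInv x) := by
  classical
  have key : ∀ s : Finset ι,
      ExteriorAlgebra.map (b.constr R fun i => if i ∈ s then 0 else b i) x = x := by
    intro s
    induction s using Finset.induction_on with
    | empty =>
      have : (b.constr R fun i => if i ∈ (∅ : Finset ι) then 0 else b i) = LinearMap.id :=
        b.ext fun i => by simp
      rw [this, ExteriorAlgebra.map_id]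
      rfl
    | insert i s hi ih =>
      have : (b.constr R fun j => if j ∈ insert i s then 0 else b j) =
          (b.constr R fun j => if j ∈ s then 0 else b j).comp
            (LinearMap.id - (b.coord i).smulRight (b i)) := by
        refine b.ext fun j => ?_
        rw [b.constr_basis, LinearMap.comp_apply, LinearMap.sub_apply, LinearMap.id_apply,
          LinearMap.smulRight_apply, b.coord_apply, b.repr_self]
        by_cases hj : j = i
        · subst hj
          rw [if_pos (Finset.mem_insert_self _ _), Finsupp.single_eq_same, one_smul, sub_self,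
            map_zero]
        · rw [Finsupp.single_eq_of_ne (Ne.symm hj), zero_smul, sub_zero, b.constr_basis]
          simp [hj]
      rw [this, ← ExteriorAlgebra.map_comp_map, AlgHom.comp_apply, map_proj, hx, mul_zero,
        sub_zero, ih]
  have h1 := key Finset.univ
  have h2 : (b.constr R fun i => if i ∈ (Finset.univ : Finset ι) then 0 else b i) = 0 :=
    b.ext fun i => by simp
  have h3 : ExteriorAlgebra.map (0 : V →ₗ[R] V) =
      (Algebra.ofId R _).comp ExteriorAlgebra.algebraMapInv := by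
    refine ExteriorAlgebra.hom_ext (LinearMap.ext fun v => ?_)
    show ExteriorAlgebra.map (0 : V →ₗ[R] V) (ExteriorAlgebra.ι R v) =
      algebraMap R _ (ExteriorAlgebra.algebraMapInv (ExteriorAlgebra.ι R v))
    rw [ExteriorAlgebra.map_apply_ι, ExteriorAlgebra.algebraMapInv, ExteriorAlgebra.lift_ι_apply]
    simp
  rw [h2, h3] at h1
  exact h1.symm

/-- an element all of whose Taylor coefficients vanish is zero -/
theorem eq_zero_of_coeff {ι : Type} [Fintype ι] (b : Module.Basis ι R V) (x : ExteriorAlgebra R V)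
    (hx : ∀ l : List ι, ExteriorAlgebra.algebraMapInv (dls (l.map b.coord) x) = 0) : x = 0 := by
  classical
  have key : ∀ (s : Finset ι) (y : ExteriorAlgebra R V),
      (∀ l : List ι, ExteriorAlgebra.algebraMapInv (dls (l.map b.coord) y) = 0) →
      (∀ i, i ∉ s → CliffordAlgebra.contractLeft (b.coord i) y = 0) → y = 0 := by
    intro s
    induction s using Finset.induction_on with
    | empty =>
      intro y h1 h2
      have h3 : ExteriorAlgebra.algebraMapInv y = 0 := h1 []
      rw [eq_const_of_contract b y fun i => h2 i (Finset.notMem_empty i), h3, map_zero]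
    | insert i s hi ih =>
      intro y h1 h2
      have hz : CliffordAlgebra.contractLeft (b.coord i) y = 0 := by
        refine ih _ (fun l => h1 (i :: l)) fun j hj => ?_
        by_cases hji : j = i
        · rw [hji]
          exact CliffordAlgebra.contractLeft_contractLeft _ _
        · rw [CliffordAlgebra.contractLeft_comm, h2 j (by simp [hj, hji]), map_zero, neg_zero]
      refine ih y h1 fun j hj => ?_
      by_cases hji : j = i
      · rw [hji]
        exact hz
      · exact h2 j (by simp [hj, hji])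
  exact key Finset.univ x hx fun i hi => absurd (Finset.mem_univ i) hi

/-- the norm is faithful as soon as a small multiple of the coordinate field is admissible -/
theorem eq_zero_of_cn {ι : Type} [Fintype ι] (hR : Function.Injective (algebraMap R ℂ))
    (b : Module.Basis ι R V) (hu : Submodule.span R (Set.range u) = ⊤) {ε : ℝ} (hε : 0 < ε)
    (hh : ∀ a, ε * l2 (fun i => algebraMap R ℂ (b.coord i (u a))) ≤ h a)
    (x : ExteriorAlgebra R V) (hx : cn u h x = 0) : x = 0 := by
  classical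
  let f : V →ₗ[R] ι → ℂ := LinearMap.pi fun i =>
    (ε : ℂ) • (Algebra.linearMap R ℂ).comp (b.coord i)
  have hf : ∀ v i, f v i = ε * algebraMap R ℂ (b.coord i v) := fun _ _ => rfl
  have hl2 : ∀ v, l2 (f v) = ε * l2 fun i => algebraMap R ℂ (b.coord i v) := by
    intro v
    unfold l2
    simp only [hf, norm_mul, mul_pow, Complex.norm_real, Real.norm_of_nonneg hε.le]
    rw [← Finset.mul_sum, Real.sqrt_mul (sq_nonneg ε), Real.sqrt_sq hε.le]
  refine eq_zero_of_coeff b x fun l => hR ?_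
  have h1 := coeff_le_cn hu f (fun a => (hl2 _).trans_le (hh a))
    (l.map fun i => (b.coord i, Pi.single i (ε : ℂ)⁻¹)) (fun p hp w => by
      obtain ⟨i, -, rfl⟩ := List.mem_map.1 hp
      have hne : (ε : ℂ) ≠ 0 := by exact_mod_cast hε.ne'
      dsimp only
      rw [Finset.sum_eq_single i]
      · rw [hf, Pi.single_eq_same, ← mul_assoc, inv_mul_cancel₀ hne, one_mul]
      · intro j _ hj
        rw [Pi.single_eq_of_ne hj, zero_mul]
      · intro hi
        exact absurd (Finset.mem_univ i) hi) x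
  rw [hx, mul_zero, List.map_map] at h1
  rw [map_zero]
  exact norm_le_zero_iff.1 h1

end Vale.Agent.P144Z.CAR
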