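import Vale.Agent.P144Z.CAR.Wick
import Mathlib.Analysis.CStarAlgebra.Matrix
import Mathlib.Analysis.CStarAlgebra.Spectrum
import Mathlib.LinearAlgebra.Matrix.Kronecker

/-!
# Fermionic Fock space as matrices, the Gram bound, and Gaussian convolution as a vacuum block
-/

namespace Vale.Agent.P144Z.CAR

open Matrix
open scoped Kronecker Matrix.Norms.L2Operator

set_option linter.unusedSectionVars false

/-- annihilation matrices `a i`, parity `P` and vacuum index `o` -/
structure IsFock {ι κ : Type} [DecidableEq ι] [Fintype κ] [DecidableEq κ]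
    (a : ι → Matrix κ κ ℂ) (P : Matrix κ κ ℂ) (o : κ) : Prop where
  aa : ∀ i j, a i * a j + a j * a i = 0
  ac : ∀ i j, a i * (a j)ᴴ + (a j)ᴴ * a i = if i = j then 1 else 0
  Pa : ∀ i, P * a i + a i * P = 0
  PP : P * P = 1
  Ph : Pᴴ = P
  av : ∀ i k, a i k o = 0
  Pv : ∀ k, P k o = if k = o then 1 else 0

theorem IsFock.Pc {ι κ : Type} [DecidableEq ι] [Fintype κ] [DecidableEq κ]
    {a : ι → Matrix κ κ ℂ} {P : Matrix κ κ ℂ} {o : κ} (h : IsFock a P o) (i : ι) :
    P * (a i)ᴴ + (a i)ᴴ * P = 0 := by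
  have := congrArg conjTranspose (h.Pa i)
  rw [conjTranspose_add, conjTranspose_mul, conjTranspose_mul, h.Ph, conjTranspose_zero,
    add_comm] at this
  exact this

theorem exists_fock_fin (m : ℕ) : ∃ (κ : Type) (_ : Fintype κ) (_ : DecidableEq κ)
    (a : Fin m → Matrix κ κ ℂ) (P : Matrix κ κ ℂ) (o : κ), IsFock a P o := by
  induction m with
  | zero =>
    refine ⟨Unit, inferInstance, inferInstance, fun i => i.elim0, 1, (), ?_⟩
    exact ⟨fun i => i.elim0, fun i => i.elim0, fun i => i.elim0, mul_one _, conjTranspose_one,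
      fun i => i.elim0, fun k => by simp⟩
  | succ m ih =>
    obtain ⟨κ, _, _, a, P, o, h⟩ := ih
    have hPa : ∀ i, a i * P + P * a i = 0 := fun i => by rw [add_comm]; exact h.Pa i
    have hPc : ∀ i, (a i)ᴴ * P + P * (a i)ᴴ = 0 := fun i => by rw [add_comm]; exact h.Pc i
    refine ⟨κ ⊕ κ, inferInstance, inferInstance,
      Fin.cons (fromBlocks 0 P 0 0) fun i => fromBlocks (a i) 0 0 (a i), fromBlocks P 0 0 (-P),
      Sum.inl o, ?_, ?_, ?_, ?_, ?_, ?_, ?_⟩
    · intro i j
      refine Fin.cases ?_ (fun i => ?_) i <;> refine Fin.cases ?_ (fun j => ?_) j <;>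
        simp [fromBlocks_multiply, fromBlocks_add, h.aa, h.Pa, hPa]
    · intro i j
      refine Fin.cases ?_ (fun i => ?_) i <;> refine Fin.cases ?_ (fun j => ?_) j
      · simp [fromBlocks_multiply, fromBlocks_add, fromBlocks_conjTranspose, h.Ph, h.PP]
      · simp [fromBlocks_multiply, fromBlocks_add, fromBlocks_conjTranspose, h.Pc,
          (Fin.succ_ne_zero j).symm]
      · simp [fromBlocks_multiply, fromBlocks_add, fromBlocks_conjTranspose, h.Ph, hPa]
      · simp only [Fin.cons_succ, fromBlocks_conjTranspose, conjTranspose_zero,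
          fromBlocks_multiply, fromBlocks_add, Matrix.mul_zero, Matrix.zero_mul, add_zero,
          zero_add, h.ac, Fin.succ_inj]
        split_ifs
        · exact fromBlocks_one
        · exact fromBlocks_zero
    · intro i
      refine Fin.cases ?_ (fun i => ?_) i
      · simp [fromBlocks_multiply, fromBlocks_add]
      · have e : -(P * a i) + -(a i * P) = 0 := by rw [← neg_add, h.Pa, neg_zero]
        simp [fromBlocks_multiply, fromBlocks_add, h.Pa, e]
    · simp [fromBlocks_multiply, h.PP]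
    · simp [fromBlocks_conjTranspose, h.Ph]
    · intro i k
      refine Fin.cases ?_ (fun i => ?_) i <;> cases k <;> simp [h.av]
    · intro k
      cases k <;> simp [h.Pv]

theorem exists_fock (ι : Type) [Fintype ι] [DecidableEq ι] : ∃ (κ : Type) (_ : Fintype κ)
    (_ : DecidableEq κ) (a : ι → Matrix κ κ ℂ) (P : Matrix κ κ ℂ) (o : κ), IsFock a P o := by
  obtain ⟨κ, _, _, a, P, o, h⟩ := exists_fock_fin (Fintype.card ι)
  refine ⟨κ, inferInstance, inferInstance, fun i => a (Fintype.equivFin ι i), P, o,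
    fun i j => h.aa _ _, fun i j => ?_, fun i => h.Pa _, h.PP, h.Ph, fun i k => h.av _ k, h.Pv⟩
  rw [h.ac]
  simp

/-- an element with `c c = 0` and `c c* + c* c = s` has norm at most `√s` -/
theorem norm_le_of_car {A : Type} [CStarAlgebra A] (c : A) (s : ℝ) (hs : 0 ≤ s) (h0 : c * c = 0)
    (h1 : c * star c + star c * c = (s : ℂ) • (1 : A)) : ‖c‖ ≤ √s := by
  have e1 : star (star c * c) * (star c * c) = (s : ℂ) • (star c * c) := by
    have e2 : c * star c = (s : ℂ) • (1 : A) - star c * c := eq_sub_of_add_eq h1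
    rw [star_mul, star_star, mul_assoc, ← mul_assoc c, e2, sub_mul, mul_assoc, h0, mul_zero,
      sub_zero, smul_mul_assoc, one_mul, mul_smul_comm]
  have e3 := congrArg norm e1
  rw [CStarRing.norm_star_mul_self, norm_smul, Complex.norm_real, Real.norm_of_nonneg hs,
    CStarRing.norm_star_mul_self] at e3
  refine Real.le_sqrt_of_sq_le ?_
  rw [sq]
  rcases (mul_nonneg (norm_nonneg c) (norm_nonneg c)).eq_or_lt with h | h
  · rw [← h]; exact hs
  · exact le_of_eq (mul_right_cancel₀ h.ne' e3)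

section

variable {ι κ : Type} [Fintype ι] [DecidableEq ι] [Fintype κ] [DecidableEq κ]
  {a : ι → Matrix κ κ ℂ} {P : Matrix κ κ ℂ} {o : κ}

/-- annihilation field, linear in the coefficients -/
noncomputable def anF (a : ι → Matrix κ κ ℂ) : (ι → ℂ) →ₗ[ℂ] Matrix κ κ ℂ :=
  Fintype.linearCombination ℂ a

/-- creation field, linear in the coefficients -/
noncomputable def crF (a : ι → Matrix κ κ ℂ) : (ι → ℂ) →ₗ[ℂ] Matrix κ κ ℂ :=
  Fintype.linearCombination ℂ fun i => (a i)ᴴ

omit [DecidableEq ι] [Fintype κ] [DecidableEq κ] in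
theorem anF_apply (g : ι → ℂ) : anF a g = ∑ i, g i • a i := Fintype.linearCombination_apply _ _ _

omit [DecidableEq ι] [Fintype κ] [DecidableEq κ] in
theorem crF_apply (f : ι → ℂ) : crF a f = ∑ i, f i • (a i)ᴴ :=
  Fintype.linearCombination_apply _ _ _

omit [DecidableEq ι] [Fintype κ] [DecidableEq κ] in
theorem crF_eq (f : ι → ℂ) : crF a f = (anF a (star f))ᴴ := by
  rw [crF_apply, anF_apply, conjTranspose_sum]
  exact Finset.sum_congr rfl fun i _ => by rw [conjTranspose_smul, Pi.star_apply, star_star]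

omit [DecidableEq ι] [DecidableEq κ] in
theorem anti_sum (x y : ι → Matrix κ κ ℂ) (f g : ι → ℂ) :
    (∑ i, f i • x i) * (∑ j, g j • y j) + (∑ j, g j • y j) * (∑ i, f i • x i) =
      ∑ i, ∑ j, (f i * g j) • (x i * y j + y j * x i) := by
  rw [Finset.sum_mul_sum, Finset.sum_mul_sum, Finset.sum_comm (f := fun j i => g j • y j * f i • x i),
    ← Finset.sum_add_distrib]
  refine Finset.sum_congr rfl fun i _ => ?_
  rw [← Finset.sum_add_distrib]
  refine Finset.sum_congr rfl fun j _ => ?_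
  rw [smul_mul_smul_comm, smul_mul_smul_comm, smul_add, mul_comm (g j)]

theorem IsFock.an_an (h : IsFock a P o) (g g' : ι → ℂ) :
    anF a g * anF a g' + anF a g' * anF a g = 0 := by
  rw [anF_apply, anF_apply, anti_sum]
  simp [h.aa]

theorem IsFock.an_cr (h : IsFock a P o) (g f : ι → ℂ) :
    anF a g * crF a f + crF a f * anF a g = (∑ i, g i * f i) • (1 : Matrix κ κ ℂ) := by
  rw [anF_apply, crF_apply, anti_sum, Finset.sum_smul]
  refine Finset.sum_congr rfl fun i _ => ?_
  simp [h.ac]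

theorem IsFock.cr_cr (h : IsFock a P o) (f f' : ι → ℂ) :
    crF a f * crF a f' + crF a f' * crF a f = 0 := by
  rw [crF_eq, crF_eq, ← conjTranspose_mul, ← conjTranspose_mul, ← conjTranspose_add, h.an_an,
    conjTranspose_zero]

theorem IsFock.P_an (h : IsFock a P o) (g : ι → ℂ) : P * anF a g + anF a g * P = 0 := by
  rw [anF_apply, Finset.mul_sum, Finset.sum_mul, ← Finset.sum_add_distrib]
  refine Finset.sum_eq_zero fun i _ => ?_
  rw [mul_smul_comm, smul_mul_assoc, ← smul_add, h.Pa, smul_zero]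

theorem IsFock.P_cr (h : IsFock a P o) (f : ι → ℂ) : P * crF a f + crF a f * P = 0 := by
  rw [crF_apply, Finset.mul_sum, Finset.sum_mul, ← Finset.sum_add_distrib]
  refine Finset.sum_eq_zero fun i _ => ?_
  rw [mul_smul_comm, smul_mul_assoc, ← smul_add, h.Pc, smul_zero]

theorem sq_zero_of_anti {x : Matrix κ κ ℂ} (h : x * x + x * x = 0) : x * x = 0 := by
  rw [← two_smul ℂ] at h
  exact (smul_eq_zero.1 h).resolve_left two_ne_zero

/-- Euclidean norm of a coefficient vector -/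
noncomputable def l2 (g : ι → ℂ) : ℝ := √(∑ i, ‖g i‖ ^ 2)

omit [DecidableEq ι] in
theorem l2_nonneg (g : ι → ℂ) : 0 ≤ l2 g := Real.sqrt_nonneg _

omit [DecidableEq ι] in
theorem l2_star (g : ι → ℂ) : l2 (star g) = l2 g := by
  unfold l2
  simp

theorem IsFock.norm_an (h : IsFock a P o) (g : ι → ℂ) : ‖anF a g‖ ≤ l2 g := by
  refine norm_le_of_car _ _ (Finset.sum_nonneg fun i _ => by positivity)
    (sq_zero_of_anti (h.an_an g g)) ?_
  have e : star (anF a g) = crF a (star g) := by rw [crF_eq, star_star]; rfl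
  rw [e, h.an_cr]
  refine congrArg (fun z : ℂ => z • (1 : Matrix κ κ ℂ)) ?_
  rw [Complex.ofReal_sum]
  refine Finset.sum_congr rfl fun i _ => ?_
  rw [Pi.star_apply, Complex.star_def, Complex.mul_conj, Complex.normSq_eq_norm_sq]

theorem IsFock.norm_cr (h : IsFock a P o) (f : ι → ℂ) : ‖crF a f‖ ≤ l2 f := by
  rw [crF_eq, l2_opNorm_conjTranspose, ← l2_star f]
  exact h.norm_an _

theorem IsFock.an_vac (h : IsFock a P o) (g : ι → ℂ) (k : κ) : anF a g k o = 0 := by
  rw [anF_apply, Matrix.sum_apply]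
  exact Finset.sum_eq_zero fun i _ => by rw [Matrix.smul_apply, h.av, smul_zero]

theorem IsFock.vac_cr (h : IsFock a P o) (f : ι → ℂ) (k : κ) : crF a f o k = 0 := by
  rw [crF_eq, conjTranspose_apply, h.an_vac, star_zero]

theorem IsFock.vac_P (h : IsFock a P o) (k : κ) : P o k = if k = o then 1 else 0 := by
  rw [← h.Ph, conjTranspose_apply, h.Pv]
  split_ifs <;> simp

end

section Kron

variable {n κ : Type} [Fintype n] [DecidableEq n] [Fintype κ] [DecidableEq κ]

/-- `x ↦ x ⊗ 1` -/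
noncomputable def kronL (n κ : Type) [Fintype n] [DecidableEq n] [Fintype κ] [DecidableEq κ] :
    Matrix n n ℂ →⋆ₐ[ℂ] Matrix (n × κ) (n × κ) ℂ where
  toFun x := x ⊗ₖ (1 : Matrix κ κ ℂ)
  map_one' := one_kronecker_one
  map_mul' x y := by rw [← mul_kronecker_mul, mul_one]
  map_zero' := zero_kronecker _
  map_add' x y := add_kronecker _ _ _
  commutes' r := by
    rw [Algebra.algebraMap_eq_smul_one, Algebra.algebraMap_eq_smul_one, smul_kronecker,
      one_kronecker_one]
  map_star' x := by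
    rw [star_eq_conjTranspose, star_eq_conjTranspose, conjTranspose_kronecker, conjTranspose_one]

/-- `y ↦ 1 ⊗ y` -/
noncomputable def kronR (n κ : Type) [Fintype n] [DecidableEq n] [Fintype κ] [DecidableEq κ] :
    Matrix κ κ ℂ →⋆ₐ[ℂ] Matrix (n × κ) (n × κ) ℂ where
  toFun y := (1 : Matrix n n ℂ) ⊗ₖ y
  map_one' := one_kronecker_one
  map_mul' x y := by rw [← mul_kronecker_mul, mul_one]
  map_zero' := kronecker_zero _
  map_add' x y := kronecker_add _ _ _
  commutes' r := by
    rw [Algebra.algebraMap_eq_smul_one, Algebra.algebraMap_eq_smul_one, kronecker_smul,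
      one_kronecker_one]
  map_star' x := by
    rw [star_eq_conjTranspose, star_eq_conjTranspose, conjTranspose_kronecker, conjTranspose_one]

theorem norm_kron_le (x : Matrix n n ℂ) (y : Matrix κ κ ℂ) : ‖x ⊗ₖ y‖ ≤ ‖x‖ * ‖y‖ := by
  have e : x ⊗ₖ y = kronL n κ x * kronR n κ y := by
    show _ = x ⊗ₖ (1 : Matrix κ κ ℂ) * (1 : Matrix n n ℂ) ⊗ₖ y
    rw [← mul_kronecker_mul, mul_one, one_mul]
  rw [e]
  exact (norm_mul_le _ _).trans (mul_le_mul (NonUnitalStarAlgHom.norm_apply_le _ x)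
    (NonUnitalStarAlgHom.norm_apply_le _ y) (norm_nonneg _) (norm_nonneg _))

theorem norm_one_le : ‖(1 : Matrix n n ℂ)‖ ≤ 1 := by
  have h := CStarRing.norm_star_mul_self (x := (1 : Matrix n n ℂ))
  rw [star_one, mul_one] at h
  nlinarith [norm_nonneg (1 : Matrix n n ℂ)]

theorem norm_le_one_of_unitary {m : Type} [Fintype m] {J : Matrix m n ℂ} (h : Jᴴ * J = 1) :
    ‖J‖ ≤ 1 := by
  have h1 := l2_opNorm_conjTranspose_mul_self J
  rw [h] at h1
  have h2 := norm_one_le (n := n)
  nlinarith [norm_nonneg J]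

/-- a square submatrix along an injective map has smaller norm -/
theorem norm_submatrix_le {m : Type} [Fintype m] [DecidableEq m] (T : Matrix m m ℂ) (e e' : n → m)
    (he : Function.Injective e) (he' : Function.Injective e') : ‖T.submatrix e e'‖ ≤ ‖T‖ := by
  have hJ : ∀ e : n → m, Function.Injective e →
      ‖((1 : Matrix m m ℂ).submatrix id e)‖ ≤ 1 := by
    intro e he
    refine norm_le_one_of_unitary ?_
    rw [conjTranspose_submatrix, conjTranspose_one, ← submatrix_mul _ _ _ _ _ Function.bijective_id,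
      mul_one, submatrix_one _ he]
  have e1 : T.submatrix e e' =
      ((1 : Matrix m m ℂ).submatrix id e)ᴴ * T * (1 : Matrix m m ℂ).submatrix id e' := by
    rw [conjTranspose_submatrix, conjTranspose_one]
    conv_rhs => rw [← submatrix_id_id T]
    rw [← submatrix_mul _ _ _ _ _ Function.bijective_id,
      ← submatrix_mul _ _ _ _ _ Function.bijective_id, one_mul, mul_one]
  rw [e1]
  refine (l2_opNorm_mul _ _).trans ?_
  have h1 := l2_opNorm_mul ((1 : Matrix m m ℂ).submatrix id e)ᴴ T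
  rw [l2_opNorm_conjTranspose] at h1
  have h2 := hJ e he
  have h3 := hJ e' he'
  have h4 := norm_nonneg T
  have h5 : ‖((1 : Matrix m m ℂ).submatrix id e)ᴴ * T‖ ≤ ‖T‖ := by nlinarith
  nlinarith [norm_nonneg (((1 : Matrix m m ℂ).submatrix id e)ᴴ * T)]

/-- an entry of a matrix is bounded by the norm -/
theorem norm_entry_le {m : Type} [Fintype m] [DecidableEq m] (T : Matrix m m ℂ) (i j : m) :
    ‖T i j‖ ≤ ‖T‖ := by
  have h := norm_submatrix_le (n := Unit) T (fun _ => i) (fun _ => j)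
    (fun _ _ _ => rfl) (fun _ _ _ => rfl)
  have e : T.submatrix (fun _ : Unit => i) (fun _ : Unit => j) = diagonal fun _ => T i j := by
    ext a b
    simp
  rw [e, l2_opNorm_diagonal, pi_norm_const] at h
  exact h

/-- the vacuum block -/
def vac (n : Type) (o : κ) : Matrix (n × κ) (n × κ) ℂ →ₗ[ℂ] Matrix n n ℂ where
  toFun T := T.submatrix (fun i => (i, o)) fun i => (i, o)
  map_add' _ _ := rfl
  map_smul' _ _ := rfl

theorem norm_vac_le (o : κ) (T : Matrix (n × κ) (n × κ) ℂ) : ‖vac n o T‖ ≤ ‖T‖ :=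
  norm_submatrix_le T _ _ (fun _ _ h => (Prod.ext_iff.1 h).1) fun _ _ h => (Prod.ext_iff.1 h).1

end Kron

section Main

variable {R V : Type} [CommRing R] [Algebra R ℂ] [AddCommGroup V] [Module R V]
  {ι n : Type} [Fintype ι] [Fintype n] [DecidableEq n]

/-- **Gaussian convolution is a vacuum block.** If the covariance has the Gram representation
`C v w = ∑ i, g v i * f w i`, every anticommuting matrix field `φ` has an extension `Ψ` with
`‖Ψ v‖ ≤ ‖φ v‖ + ‖f v‖ + ‖g v‖` and a contraction `E` such that the convolution evaluated at `φ` is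
`E` of the evaluation at `Ψ`. The operators `A γ` act as derivatives. -/
theorem exists_gauss_ext (C : LinearMap.BilinForm R V) (hC : ∀ v, C v v = 0)
    (f g : V →ₗ[R] ι → ℂ) (hfg : ∀ v w, algebraMap R ℂ (C v w) = ∑ i, g v i * f w i)
    (φ : V →ₗ[R] Matrix n n ℂ) (hφ : ∀ v, φ v * φ v = 0) :
    ∃ (m : Type) (_ : Fintype m) (_ : DecidableEq m) (Ψ : V →ₗ[R] Matrix m m ℂ)
      (hΨ : ∀ v, Ψ v * Ψ v = 0) (E : Matrix m m ℂ →ₗ[ℂ] Matrix n n ℂ)
      (A : (ι → ℂ) → Matrix m m ℂ),
      (∀ v, ‖Ψ v‖ ≤ ‖φ v‖ + (l2 (f v) + l2 (g v))) ∧ (∀ T, ‖E T‖ ≤ ‖T‖) ∧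
      (∀ x, ExteriorAlgebra.lift R ⟨φ, hφ⟩ (gauss C hC x) =
        E (ExteriorAlgebra.lift R ⟨Ψ, hΨ⟩ x)) ∧
      (∀ γ, ‖A γ‖ ≤ l2 γ) ∧ (∀ γ (T : Matrix m m ℂ), E (T * A γ) = 0) ∧
      (∀ γ γ', A γ * A γ' + A γ' * A γ = 0) ∧
      ∀ γ w, A γ * Ψ w + Ψ w * A γ = (∑ i, γ i * f w i) • (1 : Matrix m m ℂ) := by
  classical
  obtain ⟨κ, _, _, a, P, o, h⟩ := exists_fock ι
  let τ : V → Matrix (n × κ) (n × κ) ℂ := fun v => φ v ⊗ₖ P
  let cr : V → Matrix (n × κ) (n × κ) ℂ := fun v => (1 : Matrix n n ℂ) ⊗ₖ crF a (f v)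
  let an : V → Matrix (n × κ) (n × κ) ℂ := fun v => (1 : Matrix n n ℂ) ⊗ₖ anF a (g v)
  let Ψ : V →ₗ[R] Matrix (n × κ) (n × κ) ℂ :=
    { toFun := fun v => τ v + cr v + an v
      map_add' := fun v w => by
        simp only [τ, cr, an, map_add, add_kronecker, kronecker_add]
        abel
      map_smul' := fun r v => by
        simp only [τ, cr, an, map_smul, LinearMap.map_smul_of_tower, smul_kronecker,
          kronecker_smul, RingHom.id_apply, smul_add] }
  have hsum : ∀ v, Ψ v = τ v + cr v + an v := fun _ => rfl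
  have anti1 : ∀ (x : Matrix n n ℂ) (y : Matrix κ κ ℂ), P * y + y * P = 0 →
      (1 : Matrix n n ℂ) ⊗ₖ y * x ⊗ₖ P + x ⊗ₖ P * (1 : Matrix n n ℂ) ⊗ₖ y = 0 := by
    intro x y hy
    rw [← mul_kronecker_mul, ← mul_kronecker_mul, one_mul, mul_one, ← kronecker_add, add_comm, hy,
      kronecker_zero]
  have anti2 : ∀ y y' : Matrix κ κ ℂ,
      (1 : Matrix n n ℂ) ⊗ₖ y * (1 : Matrix n n ℂ) ⊗ₖ y' +
        (1 : Matrix n n ℂ) ⊗ₖ y' * (1 : Matrix n n ℂ) ⊗ₖ y =
          (1 : Matrix n n ℂ) ⊗ₖ (y * y' + y' * y) := by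
    intro y y'
    rw [← mul_kronecker_mul, ← mul_kronecker_mul, one_mul, ← kronecker_add]
  let A : (ι → ℂ) → Matrix (n × κ) (n × κ) ℂ := fun γ => (1 : Matrix n n ℂ) ⊗ₖ anF a γ
  have hAA : ∀ γ γ', A γ * A γ' + A γ' * A γ = 0 := by
    intro γ γ'
    refine (anti2 _ _).trans ?_
    rw [h.an_an, kronecker_zero]
  have hA : ∀ γ w, A γ * Ψ w + Ψ w * A γ =
      (∑ i, γ i * f w i) • (1 : Matrix (n × κ) (n × κ) ℂ) := by
    intro γ w
    have e1 : A γ * τ w + τ w * A γ = 0 := anti1 _ _ (h.P_an _)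
    have e2 : A γ * cr w + cr w * A γ =
        (∑ i, γ i * f w i) • (1 : Matrix (n × κ) (n × κ) ℂ) := by
      refine (anti2 _ _).trans ?_
      rw [h.an_cr, kronecker_smul, one_kronecker_one]
    have e3 : A γ * an w + an w * A γ = 0 := hAA _ _
    rw [hsum, ← e2, ← add_zero (A γ * cr w + cr w * A γ), ← e3,
      ← zero_add (A γ * cr w + cr w * A γ), ← e1]
    noncomm_ring
  have hc : ∀ v w, an v * Ψ w + Ψ w * an v = algebraMap R _ (C v w) := by
    intro v w
    refine (hA (g v) w).trans ?_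
    rw [← hfg, algebraMap_smul, Algebra.algebraMap_eq_smul_one]
  have hAv : ∀ γ (T : Matrix (n × κ) (n × κ) ℂ), vac n o (T * A γ) = 0 := by
    intro γ T
    ext i j
    show (T * (1 : Matrix n n ℂ) ⊗ₖ anF a γ) (i, o) (j, o) = 0
    simp [Matrix.mul_apply, h.an_vac]
  have hΨ : ∀ v, Ψ v * Ψ v = 0 := by
    intro v
    have e0 : τ v * τ v = 0 := by
      show φ v ⊗ₖ P * φ v ⊗ₖ P = 0
      rw [← mul_kronecker_mul, hφ, zero_kronecker]
    have e1 : cr v * τ v + τ v * cr v = 0 := anti1 _ _ (h.P_cr _)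
    have e2 : cr v * cr v = 0 := by
      refine sq_zero_of_anti ((anti2 _ _).trans ?_)
      rw [h.cr_cr, kronecker_zero]
    have e3 : an v * an v = 0 := by
      refine sq_zero_of_anti ((anti2 _ _).trans ?_)
      rw [h.an_an, kronecker_zero]
    have e4 := hc v v
    rw [hC, map_zero] at e4
    have e5 : Ψ v * Ψ v = τ v * τ v + (cr v * τ v + τ v * cr v) + cr v * cr v +
        (an v * Ψ v + Ψ v * an v) - an v * an v := by
      rw [hsum]
      noncomm_ring
    rw [e5, e0, e1, e2, e3, e4]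
    simp
  refine ⟨n × κ, inferInstance, inferInstance, Ψ, hΨ, vac n o, A, fun v => ?_, norm_vac_le o,
    fun x => ?_, fun γ => (NonUnitalStarAlgHom.norm_apply_le (kronR n κ) _).trans (h.norm_an _),
    hAv, hAA, hA⟩
  · have hP : ‖P‖ ≤ 1 := norm_le_one_of_unitary (by rw [h.Ph, h.PP])
    have h1 : ‖τ v‖ ≤ ‖φ v‖ :=
      (norm_kron_le _ _).trans (mul_le_of_le_one_right (norm_nonneg _) hP)
    have h2 : ‖cr v‖ ≤ l2 (f v) :=
      (NonUnitalStarAlgHom.norm_apply_le (kronR n κ) _).trans (h.norm_cr _)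
    have h3 : ‖an v‖ ≤ l2 (g v) :=
      (NonUnitalStarAlgHom.norm_apply_le (kronR n κ) _).trans (h.norm_an _)
    rw [hsum]
    have h4 := norm_add₃_le (a := τ v) (b := cr v) (c := an v)
    linarith
  · refine (wick φ hφ Ψ hΨ ((vac n o).restrictScalars R) τ cr an hsum ?_ ?_ ?_
      (fun v T => hAv (g v) T) hc x).symm
    · show (1 : Matrix (n × κ) (n × κ) ℂ).submatrix _ _ = 1
      exact submatrix_one _ fun _ _ e => (Prod.ext_iff.1 e).1
    · intro v T
      ext i j
      show (φ v ⊗ₖ P * T) (i, o) (j, o) =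
        (φ v * T.submatrix (fun i : n => (i, o)) (fun i : n => (i, o)) : Matrix n n ℂ) i j
      simp [Matrix.mul_apply, Fintype.sum_prod_type, h.vac_P]
    · intro v T
      ext i j
      show ((1 : Matrix n n ℂ) ⊗ₖ crF a (f v) * T) (i, o) (j, o) = 0
      simp [Matrix.mul_apply, h.vac_cr]

end Main

end Vale.Agent.P144Z.CAR
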