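import Mathlib.LinearAlgebra.CliffordAlgebra.Contraction
import Mathlib.LinearAlgebra.ExteriorAlgebra.Basic
import Mathlib.Tactic

/-!
# Gaussian convolution on the Grassmann algebra and the abstract Wick theorem
-/

namespace Vale.Agent.P144Z.CAR

open CliffordAlgebra

variable {R V : Type} [CommRing R] [AddCommGroup V] [Module R V]

theorem gauss_proof (C : LinearMap.BilinForm R V) (hC : ∀ v, C v v = 0) :
    (-C).toQuadraticMap = (0 : QuadraticForm R V) - 0 := by
  ext v
  simp [hC v]

/-- Gaussian convolution with the alternating covariance `C`: the product `ψ v * ψ w` is sent to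
`ψ v * ψ w + C v w`. -/
noncomputable def gauss (C : LinearMap.BilinForm R V) (hC : ∀ v, C v v = 0) :
    ExteriorAlgebra R V →ₗ[R] ExteriorAlgebra R V :=
  changeForm (gauss_proof C hC)

variable {C : LinearMap.BilinForm R V} {hC : ∀ v, C v v = 0}

theorem gauss_algebraMap (r : R) : gauss C hC (algebraMap R _ r) = algebraMap R _ r :=
  changeForm_algebraMap _ r

theorem gauss_one : gauss C hC 1 = 1 := changeForm_one _

theorem gauss_ι (v : V) : gauss C hC (ExteriorAlgebra.ι R v) = ExteriorAlgebra.ι R v :=
  changeForm_ι _ v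

theorem gauss_ι_mul (v : V) (x : ExteriorAlgebra R V) :
    gauss C hC (ExteriorAlgebra.ι R v * x) =
      ExteriorAlgebra.ι R v * gauss C hC x + contractLeft (C v) (gauss C hC x) := by
  have h := changeForm_ι_mul (gauss_proof C hC) v x
  rw [LinearMap.neg_apply, map_neg, LinearMap.neg_apply, sub_neg_eq_add] at h
  exact h

theorem gauss_contractLeft (d : Module.Dual R V) (x : ExteriorAlgebra R V) :
    gauss C hC (contractLeft d x) = contractLeft d (gauss C hC x) :=
  changeForm_contractLeft _ d x

/-- the semigroup law -/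
theorem gauss_gauss {C' : LinearMap.BilinForm R V} {hC' : ∀ v, C' v v = 0}
    (h : ∀ v, (C + C') v v = 0) (x : ExteriorAlgebra R V) :
    gauss C' hC' (gauss C hC x) = gauss (C + C') h x := by
  have h1 := changeForm_changeForm (gauss_proof C hC) (gauss_proof C' hC') x
  have key : ∀ (B B' : LinearMap.BilinForm R V)
      (p : B.toQuadraticMap = (0 : QuadraticForm R V) - 0)
      (p' : B'.toQuadraticMap = (0 : QuadraticForm R V) - 0), B = B' →
      changeForm p x = changeForm p' x := by
    intro B B' p p' e
    subst e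
    rfl
  exact h1.trans (key _ _ _ _ (neg_add C C').symm)

theorem gauss_zero (h : ∀ v, (0 : LinearMap.BilinForm R V) v v = 0) (x : ExteriorAlgebra R V) :
    gauss 0 h x = x := by
  induction x using CliffordAlgebra.left_induction with
  | algebraMap r => exact gauss_algebraMap r
  | add x y hx hy => rw [map_add, hx, hy]
  | ι_mul x v hx =>
    have := gauss_ι_mul (C := 0) (hC := h) v x
    rw [hx, LinearMap.zero_apply, map_zero, LinearMap.zero_apply, add_zero] at this
    exact this

/-- A property of the elements of the Grassmann algebra which is linear and passes from `x` and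
all contractions of `x` to `ψ v * x` holds everywhere. -/
theorem contract_induction (S : Submodule R (ExteriorAlgebra R V)) (h1 : (1 : _) ∈ S)
    (hι : ∀ v x, x ∈ S → (∀ d : Module.Dual R V, contractLeft d x ∈ S) →
      ExteriorAlgebra.ι R v * x ∈ S) (x : ExteriorAlgebra R V) : x ∈ S := by
  let D : List (Module.Dual R V) → ExteriorAlgebra R V →ₗ[R] ExteriorAlgebra R V :=
    fun l => l.foldr (fun d T => (CliffordAlgebra.contractLeft d).comp T) LinearMap.id
  have hD : ∀ d l y, D (d :: l) y = contractLeft d (D l y) := fun _ _ _ => rfl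
  have key : ∀ l, D l x ∈ S := by
    induction x using CliffordAlgebra.left_induction with
    | algebraMap r =>
      intro l
      cases l with
      | nil =>
        show algebraMap R _ r ∈ S
        rw [Algebra.algebraMap_eq_smul_one]
        exact S.smul_mem r h1
      | cons d l =>
        have h0 : ∀ l d, D (d :: l) (algebraMap R _ r) = 0 := by
          intro l
          induction l with
          | nil => intro d; exact contractLeft_algebraMap _ d r
          | cons e l ih => intro d; rw [hD, ih e, map_zero]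
        rw [h0]
        exact S.zero_mem
    | add x y hx hy =>
      intro l
      rw [map_add]
      exact S.add_mem (hx l) (hy l)
    | ι_mul x v hx =>
      let M : Submodule R (ExteriorAlgebra R V) :=
        Submodule.span R ({y | ∃ l, y = D l x} ∪ {y | ∃ l, y = ExteriorAlgebra.ι R v * D l x})
      have hMS : M ≤ S := by
        refine Submodule.span_le.2 ?_
        rintro y (⟨l, rfl⟩ | ⟨l, rfl⟩)
        · exact hx l
        · exact hι v _ (hx l) fun d => hx (d :: l)
      have hM : ∀ d : Module.Dual R V, ∀ y ∈ M, contractLeft d y ∈ M := by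
        intro d y hy
        have : M ≤ M.comap (contractLeft d) := by
          refine Submodule.span_le.2 ?_
          rintro y (⟨l, rfl⟩ | ⟨l, rfl⟩)
          · exact Submodule.subset_span (Or.inl ⟨d :: l, rfl⟩)
          · show contractLeft d (ι _ v * D l x) ∈ M
            rw [contractLeft_ι_mul]
            exact M.sub_mem (M.smul_mem _ (Submodule.subset_span (Or.inl ⟨l, rfl⟩)))
              (Submodule.subset_span (Or.inr ⟨d :: l, rfl⟩))
        exact this hy
      intro l
      refine hMS ?_
      induction l with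
      | nil => exact Submodule.subset_span (Or.inr ⟨[], rfl⟩)
      | cons d l ih => exact hM d _ ih
  exact key []

section Wick

variable {A B : Type} [Ring A] [Ring B] [Algebra R A] [Algebra R B]

/-- an operator which anticommutes with the fields up to scalars acts as a contraction -/
theorem anti_lift (Ψ : V →ₗ[R] B) (hΨ : ∀ v, Ψ v * Ψ v = 0) (b : B) (d : Module.Dual R V)
    (hb : ∀ w, b * Ψ w + Ψ w * b = algebraMap R B (d w)) (x : ExteriorAlgebra R V) :
    b * ExteriorAlgebra.lift R ⟨Ψ, hΨ⟩ x =
      ExteriorAlgebra.lift R ⟨Ψ, hΨ⟩ (involute x) * b +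
        ExteriorAlgebra.lift R ⟨Ψ, hΨ⟩ (contractLeft d x) := by
  induction x using CliffordAlgebra.left_induction with
  | algebraMap r =>
    rw [contractLeft_algebraMap, map_zero, add_zero, AlgHom.commutes, AlgHom.commutes,
      AlgHom.commutes, Algebra.commutes]
  | add x y hx hy => simp only [map_add, mul_add, add_mul, hx, hy]; abel
  | ι_mul x v hx =>
    have e : ExteriorAlgebra.lift R ⟨Ψ, hΨ⟩ (ι _ v) = Ψ v := ExteriorAlgebra.lift_ι_apply R Ψ hΨ v
    rw [contractLeft_ι_mul, map_mul, map_mul, involute_ι, map_sub, map_mul, map_mul, map_neg,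
      map_smul, e, ← mul_assoc, eq_sub_of_add_eq (hb v), sub_mul, mul_assoc, hx,
      ← Algebra.smul_def]
    noncomm_ring

/-- **Wick theorem.** `E` is the vacuum block; the field `Ψ` is the sum of the background field
`τ`, a creation part `cr` and an annihilation part `an`. -/
theorem wick (φ : V →ₗ[R] A) (hφ : ∀ v, φ v * φ v = 0) (Ψ : V →ₗ[R] B) (hΨ : ∀ v, Ψ v * Ψ v = 0)
    (E : B →ₗ[R] A) (τ cr an : V → B) (hsum : ∀ v, Ψ v = τ v + cr v + an v) (h1 : E 1 = 1)
    (hτ : ∀ v T, E (τ v * T) = φ v * E T) (hcr : ∀ v T, E (cr v * T) = 0)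
    (han : ∀ v T, E (T * an v) = 0)
    (hc : ∀ v w, an v * Ψ w + Ψ w * an v = algebraMap R B (C v w)) (x : ExteriorAlgebra R V) :
    E (ExteriorAlgebra.lift R ⟨Ψ, hΨ⟩ x) = ExteriorAlgebra.lift R ⟨φ, hφ⟩ (gauss C hC x) := by
  let S : Submodule R (ExteriorAlgebra R V) :=
    LinearMap.eqLocus (E.comp (ExteriorAlgebra.lift R ⟨Ψ, hΨ⟩).toLinearMap)
      ((ExteriorAlgebra.lift R ⟨φ, hφ⟩).toLinearMap.comp (gauss C hC))
  have hS : ∀ y, y ∈ S ↔ E (ExteriorAlgebra.lift R ⟨Ψ, hΨ⟩ y) =
      ExteriorAlgebra.lift R ⟨φ, hφ⟩ (gauss C hC y) := fun y => Iff.rfl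
  refine (hS x).1 (contract_induction S ?_ (fun v y hy hd => ?_) x)
  · rw [hS, map_one, h1, gauss_one, map_one]
  · rw [hS] at hy ⊢
    have h2 := (hS _).1 (hd (C v))
    rw [map_mul, ExteriorAlgebra.lift_ι_apply, hsum, add_mul, add_mul, map_add, map_add, hτ, hcr,
      anti_lift Ψ hΨ (an v) (C v) (hc v), map_add, han, gauss_ι_mul, map_add, map_mul,
      ExteriorAlgebra.lift_ι_apply, hy, h2, gauss_contractLeft, add_zero, zero_add]

end Wick

end Vale.Agent.P144Z.CAR
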